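import Vale.Agent.P207.BlkL0
import Vale.Agent.P207.SPH.Defs
import Mathlib.Analysis.Matrix.Order

/-!
# P207, SPH: matrix lemmas for the rows R9, R10, R11
-/

open Matrix MeasureTheory Set Filter Topology

noncomputable section

namespace Vale.Agent.P207.SPH.H5

open Vale.Agent.P207.SPH

/-! ### derivatives -/

theorem md_mul {k l n : ℕ} {M : ℝ → Matrix (Fin k) (Fin l) ℝ} {N : ℝ → Matrix (Fin l) (Fin n) ℝ}
    {M' : Matrix (Fin k) (Fin l) ℝ} {N' : Matrix (Fin l) (Fin n) ℝ} {t : ℝ} (h : MD M M' t)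
    (h' : MD N N' t) : MD (fun s => M s * N s) (M' * N t + M t * N') t := by
  intro i j
  have h1 := HasDerivAt.fun_sum (u := Finset.univ) (A := fun k s => M s i k * N s k j)
    (A' := fun k => M' i k * N t k j + M t i k * N' k j) (x := t)
    (fun k _ => (h i k).fun_mul (h' k j))
  have e : (fun s => (M s * N s) i j) = fun s => ∑ k, M s i k * N s k j := by
    funext s; rw [Matrix.mul_apply]
  rw [e]
  refine h1.congr_deriv ?_
  rw [Matrix.add_apply, Matrix.mul_apply, Matrix.mul_apply, ← Finset.sum_add_distrib]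

theorem md_add {k l : ℕ} {M N : ℝ → Matrix (Fin k) (Fin l) ℝ} {M' N' : Matrix (Fin k) (Fin l) ℝ}
    {t : ℝ} (h : MD M M' t) (h' : MD N N' t) : MD (fun s => M s + N s) (M' + N') t :=
  fun i j => (h i j).fun_add (h' i j)

theorem md_transpose {k l : ℕ} {M : ℝ → Matrix (Fin k) (Fin l) ℝ} {M' : Matrix (Fin k) (Fin l) ℝ}
    {t : ℝ} (h : MD M M' t) : MD (fun s => (M s)ᵀ) M'ᵀ t := fun i j => h j i

theorem md_const {k l : ℕ} (M : Matrix (Fin k) (Fin l) ℝ) (t : ℝ) : MD (fun _ => M) 0 t :=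
  fun _ _ => hasDerivAt_const _ _

theorem md_congr {k l : ℕ} {M : ℝ → Matrix (Fin k) (Fin l) ℝ} {M' N' : Matrix (Fin k) (Fin l) ℝ}
    {t : ℝ} (h : MD M M' t) (e : M' = N') : MD M N' t := e ▸ h

theorem md_unique {k l : ℕ} {M : ℝ → Matrix (Fin k) (Fin l) ℝ} {M' N' : Matrix (Fin k) (Fin l) ℝ}
    {t : ℝ} (h : MD M M' t) (h' : MD M N' t) : M' = N' := by
  ext i j
  exact (h i j).unique (h' i j)

/-- Jacobi's formula for the logarithm of a determinant. -/
theorem dlogdet {k : ℕ} {G : ℝ → Matrix (Fin k) (Fin k) ℝ}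
    {G' : Matrix (Fin k) (Fin k) ℝ} {t : ℝ} (h : MD G G' t) (h0 : (G t).det ≠ 0) :
    HasDerivAt (fun s => Real.log (G s).det) ((G' * (G t)⁻¹).trace) t := by
  have hu : IsUnit (G t).det := isUnit_iff_ne_zero.2 h0
  have h1 : ∀ i j, HasDerivAt (fun s => G s i j) (((G' * (G t)⁻¹) * G t) i j) t := by
    intro i j
    rw [Matrix.mul_assoc, Matrix.nonsing_inv_mul _ hu, Matrix.mul_one]
    exact h i j
  have h2 := (hasDerivAt_matDet_left h1).log h0
  refine h2.congr_deriv ?_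
  field_simp

/-! ### square roots -/

open scoped MatrixOrder in
/-- a positive definite matrix has an invertible symmetric square root -/
theorem exists_sqrt {k : ℕ} (G : Matrix (Fin k) (Fin k) ℝ) (hG : G.PosDef) :
    ∃ B : Matrix (Fin k) (Fin k) ℝ, Bᵀ = B ∧ B * B = G ∧ IsUnit B.det := by
  refine ⟨CFC.sqrt G, ?_, CFC.sqrt_mul_sqrt_self G hG.posSemidef.nonneg, ?_⟩
  · have := (CFC.sqrt_nonneg G).posSemidef.isHermitian
    rw [Matrix.IsHermitian, Matrix.conjTranspose_eq_transpose_of_trivial] at this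
    exact this
  · have h1 : (CFC.sqrt G).det * (CFC.sqrt G).det = G.det := by
      rw [← Matrix.det_mul, CFC.sqrt_mul_sqrt_self G hG.posSemidef.nonneg]
    have h2 : G.det ≠ 0 := hG.det_pos.ne'
    refine isUnit_iff_ne_zero.2 fun h => h2 ?_
    rw [← h1, h, mul_zero]

/-- normalisation of a basis -/
theorem exists_Q {k : ℕ} (G : Matrix (Fin k) (Fin k) ℝ) (hG : G.PosDef) :
    ∃ Q : Matrix (Fin k) (Fin k) ℝ, IsUnit Q ∧ Qᵀ * G * Q = 1 ∧ G⁻¹ = Q * Qᵀ := by
  obtain ⟨B, hB, hBB, hu⟩ := exists_sqrt G hG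
  have hu' : IsUnit B := (Matrix.isUnit_iff_isUnit_det B).2 hu
  have e1 : (B⁻¹)ᵀ = B⁻¹ := by rw [Matrix.transpose_nonsing_inv, hB]
  refine ⟨B⁻¹, (Matrix.isUnit_nonsing_inv_iff).2 hu', ?_, ?_⟩
  · rw [e1, ← hBB, Matrix.mul_assoc, Matrix.mul_assoc, Matrix.mul_nonsing_inv _ hu,
      Matrix.mul_one, Matrix.nonsing_inv_mul _ hu]
  · rw [e1, ← hBB, Matrix.mul_inv_rev]

variable {m : ℕ} {X : Type} [TopologicalSpace X]

theorem cS (D : Sys m X) : Continuous D.S := D.cU.add D.cV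

theorem cSΦ (D : Sys m X) (f : X) : Continuous fun s => D.S (D.Φ s f) :=
  (cS D).comp (D.cont.comp (continuous_id.prodMk continuous_const))

theorem sS (D : Sys m X) (f : X) : (D.S f)ᵀ = D.S f := by
  rw [Sys.S, Matrix.transpose_add, D.sU, D.sV]

theorem loS (D : Sys m X) (f : X) (x : Fin m → ℝ) :
    (2 * D.a) * (x ⬝ᵥ x) ≤ x ⬝ᵥ (D.S f *ᵥ x) := by
  rw [Sys.S, Matrix.add_mulVec, dotProduct_add]
  have := D.loU f x
  have := D.loV f x
  linarith

theorem pdS (D : Sys m X) (f : X) : (D.S f).PosDef := by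
  refine Matrix.PosDef.of_dotProduct_mulVec_pos ?_ fun x hx => ?_
  · rw [Matrix.IsHermitian, Matrix.conjTranspose_eq_transpose_of_trivial, sS]
  · have h1 := loS D f x
    have h2 : 0 < x ⬝ᵥ x := by
      rw [← star_trivial x] 
      exact Matrix.dotProduct_star_self_pos_iff.2 hx
    have h3 := D.a_pos
    have : 0 < 2 * D.a * (x ⬝ᵥ x) := by positivity
    rw [star_trivial]
    linarith

theorem dS (D : Sys m X) (f : X) (t : ℝ) : MD (fun s => D.S (D.Φ s f))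
    (D.V (D.Φ t f) * D.V (D.Φ t f) - D.U (D.Φ t f) * D.U (D.Φ t f)) t :=
  md_congr (md_add (D.dU f t) (D.dV f t)) (by abel)

theorem isUnit_Y {D : Sys m X} {B : X → Mt m} {Y : ℝ → X → Mt m} (hY : Fund D B Y) (t : ℝ)
    (f : X) : IsUnit (Y t f).det := by
  rw [hY.det f t]
  exact isUnit_iff_ne_zero.2 (Real.exp_pos _).ne'

/-- the moving Gram matrix -/
def GW (D : Sys m X) (Y : ℝ → X → Mt m) {k : ℕ} (W : Matrix (Fin m) (Fin k) ℝ) (f : X) (t : ℝ) :
    Matrix (Fin k) (Fin k) ℝ := (Y t f * W)ᵀ * D.S (D.Φ t f) * (Y t f * W)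

/-- `(Ŵᵀ S Ŵ)' = Ŵᵀ S² Ŵ` -/
theorem dGW {D : Sys m X} {Y : ℝ → X → Mt m} (hY : Fund D D.U Y) {k : ℕ}
    (W : Matrix (Fin m) (Fin k) ℝ) (f : X) (t : ℝ) :
    MD (GW D Y W f) ((Y t f * W)ᵀ * (D.S (D.Φ t f) * D.S (D.Φ t f)) * (Y t f * W)) t := by
  have h1 : MD (fun s => Y s f * W) (D.U (D.Φ t f) * (Y t f * W)) t :=
    md_congr (md_mul (hY.der f t) (md_const W t)) (by rw [Matrix.mul_zero, add_zero,
      Matrix.mul_assoc])
  refine md_congr (md_mul (md_mul (md_transpose h1) (dS D f t)) h1) ?_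
  rw [Matrix.transpose_mul (D.U (D.Φ t f)), D.sU]
  generalize Y t f * W = w
  simp only [Sys.S]
  simp only [Matrix.mul_assoc, Matrix.add_mul, Matrix.mul_add, Matrix.sub_mul, Matrix.mul_sub]
  abel

theorem pdGW {D : Sys m X} {Y : ℝ → X → Mt m} (hY : Fund D D.U Y) {k : ℕ}
    (W : Matrix (Fin m) (Fin k) ℝ) (f : X) (hW : Wᵀ * D.S f * W = 1) (t : ℝ) :
    (GW D Y W f t).PosDef := by
  have h1 : Function.Injective (Y t f * W).mulVec := by
    intro x y hxy
    have h2 : W *ᵥ x = W *ᵥ y := by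
      have := congrArg (fun z => (Y t f)⁻¹ *ᵥ z) hxy
      simp only [Matrix.mulVec_mulVec, ← Matrix.mul_assoc] at this
      rwa [Matrix.nonsing_inv_mul _ (isUnit_Y hY t f), Matrix.one_mul] at this
    have h3 := congrArg (fun z => (Wᵀ * D.S f) *ᵥ z) h2
    simpa only [Matrix.mulVec_mulVec, hW, Matrix.one_mulVec] using h3
  have h2 := (pdS D (D.Φ t f)).conjTranspose_mul_mul_same h1
  rwa [Matrix.conjTranspose_eq_transpose_of_trivial] at h2

end Vale.Agent.P207.SPH.H5
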