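import Vale.Agent.P207.SPH.H5.Orb

/-!
# P207, SPH: row R11, rigidity of the equality case
-/

open Matrix MeasureTheory Set Filter Topology

noncomputable section

namespace Vale.Agent.P207.SPH.H5

open Vale.Agent.P207.SPH

/-- a positive symmetric matrix is the sum of its spectral steps as soon as projections realise the
partial sums of eigenvalues -/
def SumProj : Prop := ∀ {m : ℕ} (S : Mt m), Sᵀ = S → (∀ x, 0 ≤ x ⬝ᵥ (S *ᵥ x)) → ∀ c : ℕ → ℝ,
  (∀ k ≤ m, sg k S = c k) → ∀ P : Fin m → Mt m, (∀ j, (P j)ᵀ = P j) → (∀ j, P j * P j = P j) →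
    (∀ j, (P j).trace = (j : ℕ) + 1) → (∀ j, (P j * S).trace = c (j + 1)) →
      S = ∑ j : Fin m, ((c (j + 1) - c j) -
        (if (j : ℕ) + 1 < m then c (j + 2) - c (j + 1) else 0)) • P j

/-- **R11** -/
theorem rig_of (ke : KyEq) (sp : SumProj) (eq : EqStmt) : RigStmt := by
  intro m X _ _ D Y hY c hc hN f
  set f₀ := D.Φ (-1) f with hf₀
  have hf : D.Φ 1 f₀ = f := by
    rw [hf₀, D.add]
    norm_num
    exact D.zero f
  -- the frames
  have hW : ∀ j : Fin m, ∃ W : Matrix (Fin m) (Fin ((j : ℕ) + 1)) ℝ, Wᵀ * D.S f₀ * W = 1 ∧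
      (∀ t ∈ Icc (0 : ℝ) 2, D.S (D.Φ t f₀) * (Y t f₀ * W) = (Y t f₀ * W) * Mm D Y W f₀ t) ∧
      (∀ t ∈ Icc (0 : ℝ) 2, (Mm D Y W f₀ t).trace = sg ((j : ℕ) + 1) (D.S (D.Φ t f₀))) := by
    intro j
    obtain ⟨W, hW, hQ⟩ := eq m X D Y hY ((j : ℕ) + 1) j.2 2 (by norm_num) f₀
      (hN _ j.2 2 (by norm_num) f₀)
    exact ⟨W, hW, fun t ht => (inv_S ke hY j.2 W f₀ hW t (hQ t ht)).1,
      fun t ht => (inv_S ke hY j.2 W f₀ hW t (hQ t ht)).2⟩
  choose W hW1 hW2 hW3 using hW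
  -- the projections are constant
  have hP : ∀ j : Fin m, ∀ t ∈ Ioo (0 : ℝ) 2, MD (Pr Y (W j) f₀) 0 t := fun j t ht =>
    dPr hY (W j) f₀ (hW1 j) t (inv_U hY (W j) f₀ (hW1 j) (hW2 j) ht)
  have hPc : ∀ j : Fin m, ∀ t ∈ Ioo (0 : ℝ) 2, Pr Y (W j) f₀ t = Pr Y (W j) f₀ 1 := by
    intro j t ht
    ext a b
    exact (isOpen_Ioo (a := (0 : ℝ)) (b := 2)).is_const_of_deriv_eq_zero
      isPreconnected_Ioo (f := fun s => Pr Y (W j) f₀ s a b)
      (fun s hs => (hP j s hs a b).differentiableAt.differentiableWithinAt)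
      (fun s hs => (hP j s hs a b).deriv) ht ⟨by norm_num, by norm_num⟩
  have hS : ∀ t ∈ Ioo (0 : ℝ) 2, D.S (D.Φ t f₀) = ∑ j : Fin m, ((c (j + 1) - c j) -
        (if (j : ℕ) + 1 < m then c (j + 2) - c (j + 1) else 0)) • Pr Y (W j) f₀ t := by
    intro t ht
    have ht' := Ioo_subset_Icc_self ht
    refine sp _ (sS D _) (fun x => ?_) c (fun k hk => hc k hk _) _ (fun j => Pr_symm _ _ _)
      (fun j => Pr_idem hY _ _ (hW1 j) t) (fun j => ?_) (fun j => ?_)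
    · refine le_trans ?_ (loS D _ x)
      have h1 : 0 ≤ x ⬝ᵥ x := Finset.sum_nonneg fun i _ => mul_self_nonneg _
      have h2 := D.a_pos
      positivity
    · rw [Pr_trace hY _ _ (hW1 j) t]
      push_cast
      ring
    · rw [Pr_traceS hY _ _ (hW1 j) t (hW2 j t ht'), hW3 j t ht', hc _ j.2]
  have hconst : ∀ t ∈ Ioo (0 : ℝ) 2, D.S (D.Φ t f₀) = D.S (D.Φ 1 f₀) := by
    intro t ht
    rw [hS t ht, hS 1 ⟨by norm_num, by norm_num⟩]
    exact Finset.sum_congr rfl fun j _ => by rw [hPc j t ht]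
  have hd : MD (fun s => D.S (D.Φ s f₀)) 0 1 := by
    intro a b
    refine (hasDerivAt_const (1 : ℝ) (D.S (D.Φ 1 f₀) a b)).congr_of_eventuallyEq ?_
    filter_upwards [Ioo_mem_nhds (show (0 : ℝ) < 1 by norm_num) (show (1 : ℝ) < 2 by norm_num)]
      with s hs
    rw [hconst s hs]
  have h0 := md_unique (dS D f₀ 1) hd
  rw [hf] at h0
  exact eq_of_sq D f h0

end Vale.Agent.P207.SPH.H5
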