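import Vale.Agent.P207.SPH.H5.KyE
import Vale.Agent.P207.SPH.H5.Rig
import Vale.Agent.P207.SPH.H761.Proj

/-!
# P207, SPH: row R11, final form
-/

namespace Vale.Agent.P207.SPH.H5

open Vale.Agent.P207.SPH

theorem sumProj : SumProj := fun S hS hpos c hc P hs hp ht hc' =>
  H761.sum_proj S hS hpos c hc P hs hp ht hc'

/-- **R11** -/
theorem rig (ky : KyStmt) (nn : NStmt) : RigStmt := rig_of ky_eq sumProj (eqRow ky nn)

end Vale.Agent.P207.SPH.H5
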