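import Vale.Agent.P207.SPH.H5.Orb
import Vale.Agent.P207.SPH.H752.Ky

/-!
# P207, SPH: the first order condition in the equality case of Ky Fan's inequality
-/

open Matrix MeasureTheory Set Filter Topology

noncomputable section

namespace Vale.Agent.P207.SPH.H5

open Vale.Agent.P207.SPH

theorem poly_zero {h α β γ : ℝ} (H : ∀ ε : ℝ, 2 * ε * h + ε ^ 2 * α + ε ^ 3 * β + ε ^ 4 * γ ≤ 0) :
    h = 0 := by
  have h1 : HasDerivAt (fun ε : ℝ => 2 * ε * h + ε ^ 2 * α + ε ^ 3 * β + ε ^ 4 * γ) (2 * h) 0 := by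
    have a1 : HasDerivAt (fun ε : ℝ => 2 * ε * h) (2 * h) 0 := by
      simpa using ((hasDerivAt_id (0 : ℝ)).const_mul 2).mul_const h
    have a2 : HasDerivAt (fun ε : ℝ => ε ^ 2 * α) 0 0 := by
      simpa using (hasDerivAt_pow 2 (0 : ℝ)).mul_const α
    have a3 : HasDerivAt (fun ε : ℝ => ε ^ 3 * β) 0 0 := by
      simpa using (hasDerivAt_pow 3 (0 : ℝ)).mul_const β
    have a4 : HasDerivAt (fun ε : ℝ => ε ^ 4 * γ) 0 0 := by
      simpa using (hasDerivAt_pow 4 (0 : ℝ)).mul_const γ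
    exact (((a1.fun_add a2).fun_add a3).fun_add a4).congr_deriv (by ring)
  have h2 : IsLocalMax (fun ε : ℝ => 2 * ε * h + ε ^ 2 * α + ε ^ 3 * β + ε ^ 4 * γ) 0 := by
    refine Filter.Eventually.of_forall fun ε => ?_
    have := H ε
    simpa using this
  have h3 := h2.hasDerivAt_eq_zero h1
  linarith

/-- orthonormal form -/
theorem first_order {m k : ℕ} (hk : k ≤ m) (S : Mt m) (hS : Sᵀ = S)
    (hpos : ∀ x, 0 ≤ x ⬝ᵥ (S *ᵥ x)) (W : Matrix (Fin m) (Fin k) ℝ) (hW : Wᵀ * W = 1)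
    (he : (Wᵀ * S * W).trace = sg k S) : S * W = W * (Wᵀ * S * W) := by
  set A := Wᵀ * S * W with hA
  set Z := S * W - W * A with hZ
  have hWZ : Wᵀ * Z = 0 := by
    rw [hZ, Matrix.mul_sub, ← Matrix.mul_assoc, ← Matrix.mul_assoc, hW, Matrix.one_mul, ← hA,
      sub_self]
  have hZW : Zᵀ * W = 0 := by
    have := congrArg Matrix.transpose hWZ
    rwa [Matrix.transpose_mul, Matrix.transpose_transpose, Matrix.transpose_zero] at this
  set H := Zᵀ * Z with hH
  have hSW : S * W = Z + W * A := by rw [hZ]; abel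
  have hZSW : Zᵀ * S * W = H := by
    rw [Matrix.mul_assoc, hSW, Matrix.mul_add, ← Matrix.mul_assoc, hZW, Matrix.zero_mul, add_zero]
  have hHt : Hᵀ = H := by rw [hH, Matrix.transpose_mul, Matrix.transpose_transpose]
  have hWSZ : Wᵀ * S * Z = H := by
    have := congrArg Matrix.transpose hZSW
    rwa [hHt, Matrix.transpose_mul, Matrix.transpose_mul, Matrix.transpose_transpose, hS,
      ← Matrix.mul_assoc] at this
  set C := Zᵀ * S * Z with hC
  have key : ∀ ε : ℝ, 2 * ε * H.trace + ε ^ 2 * (C.trace - (A * H).trace)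
      + ε ^ 3 * (-2 * (H * H).trace) + ε ^ 4 * (-(C * H).trace) ≤ 0 := by
    intro ε
    set V := W + ε • Z with hV
    have hG : Vᵀ * V = 1 + ε ^ 2 • H := by
      simp only [hV, Matrix.transpose_add, Matrix.transpose_smul, Matrix.add_mul, Matrix.mul_add,
        hW, hWZ, hZW, ← hH, Matrix.mul_smul, Matrix.smul_mul, smul_zero, add_zero, zero_add,
        smul_smul, ← sq]
    have hM : Vᵀ * S * V = A + (2 * ε) • H + ε ^ 2 • C := by
      simp only [hV, Matrix.transpose_add, Matrix.transpose_smul, Matrix.add_mul, Matrix.mul_add,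
        Matrix.mul_smul, Matrix.smul_mul, hWSZ, hZSW, ← hA, ← hC]
      module
    have hpd : (Vᵀ * V).PosDef := by
      rw [hG]
      refine Matrix.PosDef.add_posSemidef Matrix.PosDef.one ?_
      have := Matrix.posSemidef_conjTranspose_mul_self Z
      rw [Matrix.conjTranspose_eq_transpose_of_trivial] at this
      exact this.smul (sq_nonneg ε)
    obtain ⟨Q, -, hQ, hQi⟩ := exists_Q _ hpd
    have hVQ : (V * Q)ᵀ * (V * Q) = 1 := by
      rw [← hQ, Matrix.transpose_mul]; simp only [Matrix.mul_assoc]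
    have h1 := H752.le_sg m k S (V * Q) hVQ
    rw [← he] at h1
    set G := Vᵀ * V with hGd
    have hGu : IsUnit G.det := isUnit_iff_ne_zero.2 hpd.det_pos.ne'
    have i1 : G⁻¹ = 1 - ε ^ 2 • (H * G⁻¹) := by
      have : (1 + ε ^ 2 • H) * G⁻¹ = 1 := by rw [← hG, Matrix.mul_nonsing_inv _ hGu]
      rw [Matrix.add_mul, Matrix.one_mul, Matrix.smul_mul] at this
      exact eq_sub_of_add_eq this
    have i2 : G⁻¹ = 1 - ε ^ 2 • (G⁻¹ * H) := by
      have : G⁻¹ * (1 + ε ^ 2 • H) = 1 := by rw [← hG, Matrix.nonsing_inv_mul _ hGu]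
      rw [Matrix.mul_add, Matrix.mul_one, Matrix.mul_smul] at this
      exact eq_sub_of_add_eq this
    have i3 : G⁻¹ = 1 - ε ^ 2 • H + ε ^ 4 • (H * (G⁻¹ * H)) := by
      have i4 : H * G⁻¹ = H - ε ^ 2 • (H * (G⁻¹ * H)) := by
        conv_lhs => rw [i2]
        rw [Matrix.mul_sub, Matrix.mul_one, Matrix.mul_smul]
      calc G⁻¹ = 1 - ε ^ 2 • (H * G⁻¹) := i1
        _ = 1 - ε ^ 2 • H + ε ^ 4 • (H * (G⁻¹ * H)) := by
          rw [i4]
          module
    have i5 : ((V * Q)ᵀ * S * (V * Q)).trace = (Vᵀ * S * V * G⁻¹).trace := by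
      have e1 : (V * Q)ᵀ * S * (V * Q) = Qᵀ * (Vᵀ * S * V * Q) := by
        rw [Matrix.transpose_mul]; simp only [Matrix.mul_assoc]
      rw [e1, Matrix.trace_mul_comm, hQi]
      simp only [Matrix.mul_assoc]
    have i6 : 0 ≤ (Vᵀ * S * V * (H * (G⁻¹ * H))).trace := by
      have e1 : (Vᵀ * S * V * (H * (G⁻¹ * H))).trace
          = ((V * H * Q)ᵀ * S * (V * H * Q)).trace := by
        have e2 : (V * H * Q)ᵀ * S * (V * H * Q) = (Qᵀ * H) * (Vᵀ * S * V * H * Q) := by
          rw [Matrix.transpose_mul, Matrix.transpose_mul, hHt]; simp only [Matrix.mul_assoc]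
        rw [e2, Matrix.trace_mul_comm (Qᵀ * H), hQi]
        simp only [Matrix.mul_assoc]
      rw [e1, Matrix.trace]
      refine Finset.sum_nonneg fun j _ => ?_
      have e3 : ((V * H * Q)ᵀ * S * (V * H * Q)) j j
          = (fun i => (V * H * Q) i j) ⬝ᵥ (S *ᵥ fun i => (V * H * Q) i j) := by
        rw [Matrix.mul_assoc, Matrix.mul_apply]
        rfl
      rw [Matrix.diag_apply, e3]
      exact hpos _
    rw [i5, i3, Matrix.mul_add, Matrix.mul_sub, Matrix.mul_one, Matrix.mul_smul, Matrix.mul_smul,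
      Matrix.trace_add, Matrix.trace_sub, Matrix.trace_smul, Matrix.trace_smul, smul_eq_mul,
      smul_eq_mul] at h1
    have i7 : (Vᵀ * S * V).trace = A.trace + 2 * ε * H.trace + ε ^ 2 * C.trace := by
      rw [hM, Matrix.trace_add, Matrix.trace_add, Matrix.trace_smul, Matrix.trace_smul,
        smul_eq_mul, smul_eq_mul]
    have i8 : (Vᵀ * S * V * H).trace = (A * H).trace + 2 * ε * (H * H).trace
        + ε ^ 2 * (C * H).trace := by
      rw [hM, Matrix.add_mul, Matrix.add_mul, Matrix.smul_mul, Matrix.smul_mul, Matrix.trace_add,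
        Matrix.trace_add, Matrix.trace_smul, Matrix.trace_smul, smul_eq_mul, smul_eq_mul]
    rw [i7, i8] at h1
    have i9 : 0 ≤ ε ^ 4 * (Vᵀ * S * V * (H * (G⁻¹ * H))).trace := by positivity
    nlinarith [h1, i9]
  have hz := poly_zero key
  have hZ0 : Z = 0 := by
    have h1 := (Matrix.trace_conjTranspose_mul_self_eq_zero_iff (A := Z)).1
    rw [Matrix.conjTranspose_eq_transpose_of_trivial] at h1
    exact h1 hz
  rw [hSW, hZ0, zero_add]

/-- [A] -/
theorem ky_eq : KyEq := by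
  intro m k hk S hS a ha h W hW he
  have hpd : S.PosDef := by
    refine Matrix.PosDef.of_dotProduct_mulVec_pos ?_ fun x hx => ?_
    · rw [Matrix.IsHermitian, Matrix.conjTranspose_eq_transpose_of_trivial, hS]
    · have h2 : 0 < x ⬝ᵥ x := by
        rw [← star_trivial x]
        exact Matrix.dotProduct_star_self_pos_iff.2 hx
      have : 0 < a * (x ⬝ᵥ x) := by positivity
      rw [star_trivial]
      linarith [h x]
  obtain ⟨B, hB, hBB, hu⟩ := exists_sqrt S hpd
  have e1 : (B * W)ᵀ * (B * W) = 1 := by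
    rw [Matrix.transpose_mul, hB, ← hW, ← hBB]; simp only [Matrix.mul_assoc]
  have e2 : (B * W)ᵀ * S * (B * W) = Wᵀ * (S * S) * W := by
    rw [Matrix.transpose_mul, hB, ← hBB]; simp only [Matrix.mul_assoc]
  have hpos : ∀ x, 0 ≤ x ⬝ᵥ (S *ᵥ x) := fun x => by
    refine le_trans ?_ (h x)
    have : 0 ≤ x ⬝ᵥ x := Finset.sum_nonneg fun i _ => mul_self_nonneg _
    positivity
  have h1 := first_order hk S hS hpos (B * W) e1 (by rw [e2]; exact he)
  rw [e2] at h1
  have h2 : B⁻¹ * (S * (B * W)) = B⁻¹ * (B * W * (Wᵀ * (S * S) * W)) := by rw [h1]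
  have e3 : B⁻¹ * (S * (B * W)) = S * W := by
    rw [← hBB]
    have : B⁻¹ * (B * B * (B * W)) = (B⁻¹ * B) * (B * B) * W := by
      simp only [Matrix.mul_assoc]
    rw [this, Matrix.nonsing_inv_mul _ hu, Matrix.one_mul]
  have e4 : B⁻¹ * (B * W * (Wᵀ * (S * S) * W)) = W * (Wᵀ * (S * S) * W) := by
    have : B⁻¹ * (B * W * (Wᵀ * (S * S) * W)) = (B⁻¹ * B) * (W * (Wᵀ * (S * S) * W)) := by
      simp only [Matrix.mul_assoc]
    rw [this, Matrix.nonsing_inv_mul _ hu, Matrix.one_mul]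
  rwa [e3, e4] at h2

end Vale.Agent.P207.SPH.H5
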