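import Vale.Agent.P207.SPH.H5.Up

/-!
# P207, SPH: row R11, the calculus along one orbit
-/

open Matrix MeasureTheory Set Filter Topology

noncomputable section

namespace Vale.Agent.P207.SPH.H5

open Vale.Agent.P207.SPH

/-- the first order condition in the equality case of Ky Fan's inequality -/
def KyEq : Prop := ∀ {m k : ℕ}, k ≤ m → ∀ S : Mt m, Sᵀ = S → ∀ a : ℝ, 0 < a →
  (∀ x, a * (x ⬝ᵥ x) ≤ x ⬝ᵥ (S *ᵥ x)) → ∀ W : Matrix (Fin m) (Fin k) ℝ, Wᵀ * S * W = 1 →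
    (Wᵀ * (S * S) * W).trace = sg k S → S * W = W * (Wᵀ * (S * S) * W)

/-- derivative of the inverse matrix -/
theorem md_inv {k : ℕ} {G : ℝ → Matrix (Fin k) (Fin k) ℝ} {G' : Matrix (Fin k) (Fin k) ℝ} {t : ℝ}
    (h : MD G G' t) (h0 : (G t).det ≠ 0) :
    MD (fun s => (G s)⁻¹) (-((G t)⁻¹ * G' * (G t)⁻¹)) t := by
  have hu : IsUnit (G t).det := isUnit_iff_ne_zero.2 h0
  have hG : ContinuousAt G t :=
    continuousAt_pi.2 fun i => continuousAt_pi.2 fun j => (h i j).continuousAt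
  have hr : ContinuousAt Ring.inverse (G t).det := by
    rw [Ring.inverse_eq_inv']
    exact continuousAt_inv₀ h0
  have hI : Tendsto (fun s => (G s)⁻¹) (𝓝[≠] t) (𝓝 (G t)⁻¹) :=
    ((continuousAt_matrix_inv (G t) hr).comp hG).tendsto.mono_left nhdsWithin_le_nhds
  have hs : Tendsto (fun s => (s - t)⁻¹ • (G s - G t)) (𝓝[≠] t) (𝓝 G') := by
    refine tendsto_pi_nhds.2 fun i => tendsto_pi_nhds.2 fun j => ?_
    exact hasDerivAt_iff_tendsto_slope.1 (h i j)
  have hev : ∀ᶠ s in 𝓝[≠] t, (G s).det ≠ 0 := by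
    have hd : ContinuousAt (fun s => (G s).det) t :=
      (continuous_id.matrix_det (A := fun A : Matrix (Fin k) (Fin k) ℝ => A)).continuousAt.comp hG
    exact (hd.eventually_ne h0).filter_mono nhdsWithin_le_nhds
  intro i j
  rw [hasDerivAt_iff_tendsto_slope]
  have hlim := ((hI.mul hs).mul (tendsto_const_nhds (x := (G t)⁻¹))).neg
  have hlim' := tendsto_pi_nhds.1 (tendsto_pi_nhds.1 hlim i) j
  refine hlim'.congr' ?_
  filter_upwards [hev] with s hs0
  have hus : IsUnit (G s).det := isUnit_iff_ne_zero.2 hs0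
  have e1 : (G s)⁻¹ * ((s - t)⁻¹ • (G s - G t)) * (G t)⁻¹
      = (s - t)⁻¹ • ((G t)⁻¹ - (G s)⁻¹) := by
    rw [Matrix.mul_smul, Matrix.smul_mul, Matrix.mul_sub, Matrix.sub_mul,
      Matrix.nonsing_inv_mul _ hus, Matrix.one_mul, Matrix.mul_assoc,
      Matrix.mul_nonsing_inv _ hu, Matrix.mul_one]
  rw [e1]
  simp only [Matrix.neg_apply, Matrix.smul_apply, Matrix.sub_apply, slope_def_field, smul_eq_mul]
  ring

variable {m : ℕ} {X : Type} [TopologicalSpace X]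

section orbit

variable {D : Sys m X} {Y : ℝ → X → Mt m} {k : ℕ}

/-- the moving frame -/
theorem dw (hY : Fund D D.U Y) (W : Matrix (Fin m) (Fin k) ℝ) (f : X) (t : ℝ) :
    MD (fun s => Y s f * W) (D.U (D.Φ t f) * (Y t f * W)) t :=
  md_congr (md_mul (hY.der f t) (md_const W t)) (by rw [Matrix.mul_zero, add_zero,
    Matrix.mul_assoc])

theorem inj_w (hY : Fund D D.U Y) (W : Matrix (Fin m) (Fin k) ℝ) (f : X)
    (hW : Wᵀ * D.S f * W = 1) (t : ℝ) : Function.Injective (Y t f * W).mulVec := by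
  intro x y hxy
  have h2 : W *ᵥ x = W *ᵥ y := by
    have := congrArg (fun z => (Y t f)⁻¹ *ᵥ z) hxy
    simp only [Matrix.mulVec_mulVec, ← Matrix.mul_assoc] at this
    rwa [Matrix.nonsing_inv_mul _ (isUnit_Y hY t f), Matrix.one_mul] at this
  have h3 := congrArg (fun z => (Wᵀ * D.S f) *ᵥ z) h2
  simpa only [Matrix.mulVec_mulVec, hW, Matrix.one_mulVec] using h3

/-- the matrix of `S` in the moving frame -/
def Mm (D : Sys m X) (Y : ℝ → X → Mt m) (W : Matrix (Fin m) (Fin k) ℝ) (f : X) (t : ℝ) :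
    Matrix (Fin k) (Fin k) ℝ :=
  (GW D Y W f t)⁻¹ * ((Y t f * W)ᵀ * (D.S (D.Φ t f) * D.S (D.Φ t f)) * (Y t f * W))

theorem isUnit_Mm (hY : Fund D D.U Y) (W : Matrix (Fin m) (Fin k) ℝ) (f : X)
    (hW : Wᵀ * D.S f * W = 1) (t : ℝ) : IsUnit (Mm D Y W f t).det := by
  have h1 : (D.S (D.Φ t f) * D.S (D.Φ t f)).PosDef := by
    have h2 : Function.Injective (D.S (D.Φ t f)).mulVec :=
      Matrix.mulVec_injective_iff_isUnit.2 (pdS D _).isUnit
    have h3 := Matrix.PosDef.conjTranspose_mul_self _ h2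
    rwa [Matrix.conjTranspose_eq_transpose_of_trivial, sS] at h3
  have h2 := h1.conjTranspose_mul_mul_same (inj_w hY W f hW t)
  rw [Matrix.conjTranspose_eq_transpose_of_trivial] at h2
  rw [Mm, Matrix.det_mul]
  refine IsUnit.mul ?_ (isUnit_iff_ne_zero.2 h2.det_pos.ne')
  exact Matrix.isUnit_nonsing_inv_det _ (isUnit_iff_ne_zero.2 (pdGW hY W f hW t).det_pos.ne')

/-- the frame is invariant under `S` -/
theorem inv_S (ke : KyEq) (hY : Fund D D.U Y) (hk : k ≤ m) (W : Matrix (Fin m) (Fin k) ℝ) (f : X)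
    (hW : Wᵀ * D.S f * W = 1) (t : ℝ)
    (h : ∃ Q : Matrix (Fin k) (Fin k) ℝ, IsUnit Q ∧
        (Y t f * W * Q)ᵀ * D.S (D.Φ t f) * (Y t f * W * Q) = 1 ∧
        ((Y t f * W * Q)ᵀ * (D.S (D.Φ t f) * D.S (D.Φ t f)) * (Y t f * W * Q)).trace =
          sg k (D.S (D.Φ t f))) :
    D.S (D.Φ t f) * (Y t f * W) = (Y t f * W) * Mm D Y W f t ∧
      (Mm D Y W f t).trace = sg k (D.S (D.Φ t f)) := by
  obtain ⟨Q, hQu, hQ1, hQ2⟩ := h
  have hQd : IsUnit Q.det := (Matrix.isUnit_iff_isUnit_det Q).1 hQu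
  have h1 := ke hk _ (sS D _) (2 * D.a) (by have := D.a_pos; positivity) (loS D _) _ hQ1 hQ2
  set Λ := (Y t f * W * Q)ᵀ * (D.S (D.Φ t f) * D.S (D.Φ t f)) * (Y t f * W * Q) with hΛ
  set w := Y t f * W with hw
  set S := D.S (D.Φ t f) with hS
  have h2 : S * w = w * (Q * Λ * Q⁻¹) := by
    have := congrArg (fun Z => Z * Q⁻¹) h1
    simp only [Matrix.mul_assoc] at this ⊢
    rwa [Matrix.mul_nonsing_inv _ hQd, Matrix.mul_one] at this
  have hGu : IsUnit (GW D Y W f t).det := isUnit_iff_ne_zero.2 (pdGW hY W f hW t).det_pos.ne'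
  have h3 : Mm D Y W f t = Q * Λ * Q⁻¹ := by
    rw [Mm, ← hw, ← hS]
    have e : wᵀ * (S * S) * w = GW D Y W f t * (Q * Λ * Q⁻¹) := by
      rw [GW, ← hw, ← hS, Matrix.mul_assoc wᵀ, Matrix.mul_assoc S, h2, Matrix.mul_assoc wᵀ S w]
      simp only [Matrix.mul_assoc]
    rw [e, ← Matrix.mul_assoc, Matrix.nonsing_inv_mul _ hGu, Matrix.one_mul]
  refine ⟨by rw [h3]; exact h2, ?_⟩
  rw [h3, Matrix.mul_assoc, Matrix.trace_mul_comm, Matrix.mul_assoc, Matrix.nonsing_inv_mul _ hQd,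
    Matrix.mul_one, hQ2]

/-- differentiate: the frame is invariant under `U` -/
theorem inv_U (hY : Fund D D.U Y) (W : Matrix (Fin m) (Fin k) ℝ) (f : X)
    (hW : Wᵀ * D.S f * W = 1) {T : ℝ}
    (h : ∀ t ∈ Icc 0 T, D.S (D.Φ t f) * (Y t f * W) = (Y t f * W) * Mm D Y W f t) {t : ℝ}
    (ht : t ∈ Ioo 0 T) : ∃ N : Matrix (Fin k) (Fin k) ℝ,
      D.U (D.Φ t f) * (Y t f * W) = (Y t f * W) * N := by
  have hG0 : (GW D Y W f t).det ≠ 0 := (pdGW hY W f hW t).det_pos.ne'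
  have hw := dw hY W f t
  have hS := dS D f t
  obtain ⟨M', hM'⟩ : ∃ M', MD (Mm D Y W f) M' t :=
    ⟨_, md_mul (md_inv (dGW hY W f t) hG0) (md_mul (md_mul (md_transpose hw) (md_mul hS hS)) hw)⟩
  have h1 : MD (fun s => D.S (D.Φ s f) * (Y s f * W)) _ t := md_mul hS hw
  have h2 : MD (fun s => (Y s f * W) * Mm D Y W f s) _ t := md_mul hw hM'
  have h3 : MD (fun s => D.S (D.Φ s f) * (Y s f * W))
      (D.U (D.Φ t f) * (Y t f * W) * Mm D Y W f t + (Y t f * W) * M') t := by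
    intro i j
    refine (h2 i j).congr_of_eventuallyEq ?_
    filter_upwards [Ioo_mem_nhds ht.1 ht.2] with s hs
    rw [h s (Ioo_subset_Icc_self hs)]
  have h4 := md_unique h1 h3
  have h5 := h t (Ioo_subset_Icc_self ht)
  have hu := isUnit_Mm hY W f hW t
  generalize Y t f * W = w at *
  generalize Mm D Y W f t = M at *
  rw [Sys.S] at h4 h5
  generalize D.U (D.Φ t f) = U at *
  generalize D.V (D.Φ t f) = V at *
  have h6 : (V - U) * w * M = w * M' := by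
    rw [Matrix.mul_assoc (V - U), ← h5]
    have h7 : w * M' = (V * V - U * U) * w + (U + V) * (U * w) - U * w * M := by
      rw [h4]; abel
    rw [h7, Matrix.mul_assoc U w M, ← h5]
    simp only [Matrix.mul_assoc, Matrix.add_mul, Matrix.mul_add, Matrix.sub_mul]
    abel
  have h8 : (V - U) * w = w * (M' * M⁻¹) := by
    have := congrArg (fun Z => Z * M⁻¹) h6
    simp only [Matrix.mul_assoc] at this ⊢
    rwa [Matrix.mul_nonsing_inv _ hu, Matrix.mul_one] at this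
  refine ⟨(2 : ℝ)⁻¹ • (M - M' * M⁻¹), ?_⟩
  have h9 : (2 : ℝ) • (U * w) = w * (M - M' * M⁻¹) := by
    rw [Matrix.mul_sub, ← h5, ← h8, two_smul]
    simp only [Matrix.add_mul, Matrix.sub_mul]
    abel
  rw [Matrix.mul_smul, ← h9, smul_smul]
  norm_num

/-- the orthogonal projection onto the range of the moving frame -/
def Pr (Y : ℝ → X → Mt m) (W : Matrix (Fin m) (Fin k) ℝ) (f : X) (t : ℝ) : Mt m :=
  (Y t f * W) * ((Y t f * W)ᵀ * (Y t f * W))⁻¹ * (Y t f * W)ᵀ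

theorem pdH (hY : Fund D D.U Y) (W : Matrix (Fin m) (Fin k) ℝ) (f : X)
    (hW : Wᵀ * D.S f * W = 1) (t : ℝ) : ((Y t f * W)ᵀ * (Y t f * W)).PosDef := by
  have := Matrix.PosDef.conjTranspose_mul_self _ (inj_w hY W f hW t)
  rwa [Matrix.conjTranspose_eq_transpose_of_trivial] at this

theorem dPr (hY : Fund D D.U Y) (W : Matrix (Fin m) (Fin k) ℝ) (f : X)
    (hW : Wᵀ * D.S f * W = 1) (t : ℝ) (h : ∃ N : Matrix (Fin k) (Fin k) ℝ,
      D.U (D.Φ t f) * (Y t f * W) = (Y t f * W) * N) : MD (Pr Y W f) 0 t := by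
  obtain ⟨N, hN⟩ := h
  have hw := dw hY W f t
  rw [hN] at hw
  have hd : ((Y t f * W)ᵀ * (Y t f * W)).det ≠ 0 := (pdH hY W f hW t).det_pos.ne'
  have hu : IsUnit ((Y t f * W)ᵀ * (Y t f * W)).det := isUnit_iff_ne_zero.2 hd
  refine md_congr (md_mul (md_mul hw (md_inv (md_mul (md_transpose hw) hw) hd))
    (md_transpose hw)) ?_
  generalize Y t f * W = w at *
  rw [Matrix.transpose_mul w N]
  set H := wᵀ * w with hH
  have e1 : w * -(H⁻¹ * (Nᵀ * wᵀ * w + wᵀ * (w * N)) * H⁻¹)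
      = -(w * H⁻¹ * Nᵀ) - w * N * H⁻¹ := by
    have a1 : Nᵀ * wᵀ * w + wᵀ * (w * N) = Nᵀ * H + H * N := by
      rw [hH]; simp only [Matrix.mul_assoc]
    rw [a1, Matrix.mul_add, Matrix.add_mul, ← Matrix.mul_assoc H⁻¹ H, Matrix.nonsing_inv_mul _ hu,
      Matrix.one_mul, Matrix.mul_assoc, Matrix.mul_assoc Nᵀ, Matrix.mul_nonsing_inv _ hu,
      Matrix.mul_one, Matrix.mul_neg, Matrix.mul_add]
    simp only [Matrix.mul_assoc]
    abel
  rw [e1]
  simp only [Matrix.add_mul, Matrix.sub_mul, Matrix.neg_mul, Matrix.mul_assoc]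
  abel

theorem Pr_symm (W : Matrix (Fin m) (Fin k) ℝ) (f : X) (t : ℝ) :
    (Pr Y W f t)ᵀ = Pr Y W f t := by
  rw [Pr]
  generalize Y t f * W = w
  rw [Matrix.transpose_mul, Matrix.transpose_mul, Matrix.transpose_transpose,
    Matrix.transpose_nonsing_inv, Matrix.transpose_mul, Matrix.transpose_transpose,
    Matrix.mul_assoc]

theorem Pr_idem (hY : Fund D D.U Y) (W : Matrix (Fin m) (Fin k) ℝ) (f : X)
    (hW : Wᵀ * D.S f * W = 1) (t : ℝ) : Pr Y W f t * Pr Y W f t = Pr Y W f t := by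
  have hu : IsUnit ((Y t f * W)ᵀ * (Y t f * W)).det :=
    isUnit_iff_ne_zero.2 (pdH hY W f hW t).det_pos.ne'
  rw [Pr]
  generalize Y t f * W = w at *
  have : w * (wᵀ * w)⁻¹ * wᵀ * (w * (wᵀ * w)⁻¹ * wᵀ)
      = w * ((wᵀ * w)⁻¹ * (wᵀ * w)) * (wᵀ * w)⁻¹ * wᵀ := by
    simp only [Matrix.mul_assoc]
  rw [this, Matrix.nonsing_inv_mul _ hu, Matrix.mul_one]

theorem Pr_trace (hY : Fund D D.U Y) (W : Matrix (Fin m) (Fin k) ℝ) (f : X)
    (hW : Wᵀ * D.S f * W = 1) (t : ℝ) : (Pr Y W f t).trace = k := by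
  have hu : IsUnit ((Y t f * W)ᵀ * (Y t f * W)).det :=
    isUnit_iff_ne_zero.2 (pdH hY W f hW t).det_pos.ne'
  rw [Pr, Matrix.trace_mul_comm, ← Matrix.mul_assoc, Matrix.mul_nonsing_inv _ hu,
    Matrix.trace_one, Fintype.card_fin]

theorem Pr_traceS (hY : Fund D D.U Y) (W : Matrix (Fin m) (Fin k) ℝ) (f : X)
    (hW : Wᵀ * D.S f * W = 1) (t : ℝ)
    (h : D.S (D.Φ t f) * (Y t f * W) = (Y t f * W) * Mm D Y W f t) :
    (Pr Y W f t * D.S (D.Φ t f)).trace = (Mm D Y W f t).trace := by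
  have hu : IsUnit ((Y t f * W)ᵀ * (Y t f * W)).det :=
    isUnit_iff_ne_zero.2 (pdH hY W f hW t).det_pos.ne'
  rw [Pr]
  generalize Y t f * W = w at *
  rw [Matrix.mul_assoc, Matrix.mul_assoc, Matrix.trace_mul_comm, Matrix.mul_assoc,
    Matrix.mul_assoc, h, ← Matrix.mul_assoc wᵀ, ← Matrix.mul_assoc, Matrix.nonsing_inv_mul _ hu,
    Matrix.one_mul]

end orbit

/-- `V² = U²` implies `U = V` -/
theorem eq_of_sq (D : Sys m X) (f : X) (h : D.V f * D.V f - D.U f * D.U f = 0) :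
    D.U f = D.V f := by
  have hlo := loS D f
  have hs := sS D f
  have ha := D.a_pos
  have sU := D.sU f
  have sV := D.sV f
  rw [Sys.S] at hlo hs
  generalize D.U f = U at *
  generalize D.V f = V at *
  have hE : (V - U)ᵀ = V - U := by rw [Matrix.transpose_sub, sU, sV]
  have h1 : (V - U) * (U + V) + (U + V) * (V - U) = 0 := by
    have : (V - U) * (U + V) + (U + V) * (V - U) = (V * V - U * U) + (V * V - U * U) := by
      simp only [Matrix.add_mul, Matrix.mul_add, Matrix.sub_mul, Matrix.mul_sub]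
      abel
    rw [this, h, add_zero]
  have h2 : ((V - U)ᵀ * (U + V) * (V - U)).trace = 0 := by
    have h3 : ((V - U) * ((V - U) * (U + V) + (U + V) * (V - U))).trace = 0 := by
      rw [h1, Matrix.mul_zero, Matrix.trace_zero]
    rw [Matrix.mul_add, Matrix.trace_add, Matrix.trace_mul_comm (V - U) ((V - U) * (U + V))] at h3
    rw [hE]
    rw [← Matrix.mul_assoc (V - U) (U + V)] at h3
    linarith
  have h4 : ∀ j, ((V - U)ᵀ * (U + V) * (V - U)) j j
      = (fun i => (V - U) i j) ⬝ᵥ ((U + V) *ᵥ fun i => (V - U) i j) := by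
    intro j
    rw [Matrix.mul_assoc, Matrix.mul_apply]
    rfl
  have h5 : ∀ j, 0 ≤ ((V - U)ᵀ * (U + V) * (V - U)) j j := by
    intro j
    rw [h4 j]
    refine le_trans ?_ (hlo _)
    have : 0 ≤ (fun i => (V - U) i j) ⬝ᵥ fun i => (V - U) i j :=
      Finset.sum_nonneg fun i _ => mul_self_nonneg _
    positivity
  have h6 : ∀ j, ((V - U)ᵀ * (U + V) * (V - U)) j j = 0 := by
    intro j
    rw [Matrix.trace] at h2
    exact (Finset.sum_eq_zero_iff_of_nonneg fun j _ => h5 j).1 h2 j (Finset.mem_univ j)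
  have h7 : V - U = 0 := by
    ext i j
    have h8 := hlo fun i => (V - U) i j
    rw [← h4 j, h6 j] at h8
    have h9 : (fun i => (V - U) i j) ⬝ᵥ (fun i => (V - U) i j) = 0 := by
      have : 0 ≤ (fun i => (V - U) i j) ⬝ᵥ fun i => (V - U) i j :=
        Finset.sum_nonneg fun i _ => mul_self_nonneg _
      nlinarith
    have h10 := (Finset.sum_eq_zero_iff_of_nonneg fun i _ => mul_self_nonneg _).1 h9 i
      (Finset.mem_univ i)
    exact mul_self_eq_zero.1 h10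
  exact (sub_eq_zero.1 h7).symm

end Vale.Agent.P207.SPH.H5
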