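import Vale.Agent.P207.SPH.H5.Mat

/-!
# P207, SPH: row R9 (upper bound of the growth) and row R10 (equality)
-/

open Matrix MeasureTheory Set Filter Topology

noncomputable section

namespace Vale.Agent.P207.SPH.H5

open Vale.Agent.P207.SPH

variable {m : ℕ} {X : Type} [TopologicalSpace X]

/-- the logarithmic derivative of the Gram determinant -/
def rate (D : Sys m X) (Y : ℝ → X → Mt m) {k : ℕ} (W : Matrix (Fin m) (Fin k) ℝ) (f : X) (t : ℝ) :
    ℝ :=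
  (((Y t f * W)ᵀ * (D.S (D.Φ t f) * D.S (D.Φ t f)) * (Y t f * W)) * (GW D Y W f t)⁻¹).trace

/-- the rate in a normalised basis -/
theorem rate_eq {D : Sys m X} {Y : ℝ → X → Mt m} {k : ℕ}
    (W : Matrix (Fin m) (Fin k) ℝ) (f : X) (t : ℝ) {Q : Matrix (Fin k) (Fin k) ℝ}
    (hQ : (GW D Y W f t)⁻¹ = Q * Qᵀ) :
    rate D Y W f t = ((Y t f * W * Q)ᵀ * (D.S (D.Φ t f) * D.S (D.Φ t f)) * (Y t f * W * Q)).trace
    := by
  rw [rate, hQ, ← Matrix.mul_assoc, Matrix.trace_mul_cycle, Matrix.transpose_mul (Y t f * W) Q]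
  simp only [Matrix.mul_assoc]

theorem one_eq {D : Sys m X} {Y : ℝ → X → Mt m} {k : ℕ}
    (W : Matrix (Fin m) (Fin k) ℝ) (f : X) (t : ℝ) {Q : Matrix (Fin k) (Fin k) ℝ}
    (hQ : Qᵀ * GW D Y W f t * Q = 1) :
    (Y t f * W * Q)ᵀ * D.S (D.Φ t f) * (Y t f * W * Q) = 1 := by
  rw [← hQ, GW, Matrix.transpose_mul (Y t f * W) Q]
  simp only [Matrix.mul_assoc]

theorem rate_le (ky : KyStmt) {D : Sys m X} {Y : ℝ → X → Mt m} (hY : Fund D D.U Y) {k : ℕ}
    (hk : k ≤ m) (W : Matrix (Fin m) (Fin k) ℝ) (f : X) (hW : Wᵀ * D.S f * W = 1) (t : ℝ) :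
    rate D Y W f t ≤ sg k (D.S (D.Φ t f)) := by
  obtain ⟨Q, -, hQ, hQi⟩ := exists_Q _ (pdGW hY W f hW t)
  rw [rate_eq W f t hQi]
  exact (ky m k hk).2.2 _ (sS D _) (2 * D.a) (by have := D.a_pos; positivity) (loS D _) _
    (one_eq W f t hQ)

theorem c_sg (ky : KyStmt) (D : Sys m X) {k : ℕ} (hk : k ≤ m) (f : X) :
    Continuous fun s => sg k (D.S (D.Φ s f)) := ((ky m k hk).1).comp (cSΦ D f)

/-- the defect -/
def def' (D : Sys m X) (Y : ℝ → X → Mt m) {k : ℕ} (W : Matrix (Fin m) (Fin k) ℝ) (f : X) (t : ℝ) :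
    ℝ := (∫ s in (0 : ℝ)..t, sg k (D.S (D.Φ s f))) - Real.log (GW D Y W f t).det

theorem hasDerivAt_def (ky : KyStmt) {D : Sys m X} {Y : ℝ → X → Mt m} (hY : Fund D D.U Y) {k : ℕ}
    (hk : k ≤ m) (W : Matrix (Fin m) (Fin k) ℝ) (f : X) (hW : Wᵀ * D.S f * W = 1) (t : ℝ) :
    HasDerivAt (def' D Y W f) (sg k (D.S (D.Φ t f)) - rate D Y W f t) t := by
  have hc := c_sg ky D hk f
  have h1 : HasDerivAt (fun t => ∫ s in (0 : ℝ)..t, sg k (D.S (D.Φ s f)))
      (sg k (D.S (D.Φ t f))) t :=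
    intervalIntegral.integral_hasDerivAt_right (hc.intervalIntegrable _ _)
      (hc.stronglyMeasurableAtFilter _ _) hc.continuousAt
  exact h1.fun_sub (dlogdet (dGW hY W f t) (pdGW hY W f hW t).det_pos.ne')

theorem def_zero {D : Sys m X} {Y : ℝ → X → Mt m} (hY : Fund D D.U Y) {k : ℕ}
    (W : Matrix (Fin m) (Fin k) ℝ) (f : X) (hW : Wᵀ * D.S f * W = 1) : def' D Y W f 0 = 0 := by
  rw [def', GW, hY.zero, D.zero, Matrix.one_mul, hW]
  simp

theorem def_mono (ky : KyStmt) {D : Sys m X} {Y : ℝ → X → Mt m} (hY : Fund D D.U Y) {k : ℕ}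
    (hk : k ≤ m) (W : Matrix (Fin m) (Fin k) ℝ) (f : X) (hW : Wᵀ * D.S f * W = 1) :
    Monotone (def' D Y W f) := by
  refine monotone_of_deriv_nonneg
    (fun t => (hasDerivAt_def ky hY hk W f hW t).differentiableAt) fun t => ?_
  rw [(hasDerivAt_def ky hY hk W f hW t).deriv]
  have := rate_le ky hY hk W f hW t
  linarith

theorem gw_le (ky : KyStmt) {D : Sys m X} {Y : ℝ → X → Mt m} (hY : Fund D D.U Y) {k : ℕ}
    (hk : k ≤ m) (W : Matrix (Fin m) (Fin k) ℝ) (f : X) (hW : Wᵀ * D.S f * W = 1) {T : ℝ}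
    (hT : 0 ≤ T) : (GW D Y W f T).det ≤ Real.exp (∫ s in (0 : ℝ)..T, sg k (D.S (D.Φ s f))) := by
  have h1 := def_mono ky hY hk W f hW hT
  rw [def_zero hY W f hW] at h1
  have h2 : Real.log (GW D Y W f T).det ≤ ∫ s in (0 : ℝ)..T, sg k (D.S (D.Φ s f)) := by
    rw [def'] at h1; linarith
  rw [← Real.exp_log (pdGW hY W f hW T).det_pos]
  exact Real.exp_le_exp.2 h2

/-- **R9** -/
theorem up (ky : KyStmt) : UpStmt := by
  intro m X _ _ D Y hY k hk T hT f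
  rw [Sys.N]
  refine Real.sSup_le ?_ (Real.exp_pos _).le
  rintro x ⟨W, hW, rfl⟩
  refine le_trans (le_of_eq ?_) (gw_le ky hY hk W f hW hT)
  rw [GW, Matrix.transpose_mul (Y T f) W]
  simp only [Matrix.mul_assoc]

/-- a `k`-frame which is maximal at time zero -/
theorem exists_top (D : Sys m X) {k : ℕ} (hk : k ≤ m) (f : X) :
    ∃ W : Matrix (Fin m) (Fin k) ℝ, Wᵀ * D.S f * W = 1 ∧
      (Wᵀ * (D.S f * D.S f) * W).trace = sg k (D.S f) := by
  obtain ⟨B, hB, hBB, hu⟩ := exists_sqrt (D.S f) (pdS D f)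
  -- the supremum is attained
  have hcomp : IsCompact {W : Matrix (Fin m) (Fin k) ℝ | Wᵀ * W = 1} := by
    have h1 : IsClosed {W : Matrix (Fin m) (Fin k) ℝ | Wᵀ * W = 1} :=
      isClosed_eq (by fun_prop) continuous_const
    have h2 : {W : Matrix (Fin m) (Fin k) ℝ | Wᵀ * W = 1} ⊆
        Set.pi univ fun _ => Set.pi univ fun _ => Icc (-1 : ℝ) 1 := by
      intro W hW i _ j _
      have h3 : ∑ r, W r j * W r j = 1 := by
        have := congrFun (congrFun hW j) j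
        simpa [Matrix.mul_apply] using this
      have h4 : W i j * W i j ≤ 1 := by
        rw [← h3]
        exact Finset.single_le_sum (f := fun r => W r j * W r j)
          (fun r _ => mul_self_nonneg _) (Finset.mem_univ i)
      exact abs_le.1 (abs_le_one_iff_mul_self_le_one.2 h4)
    exact IsCompact.of_isClosed_subset
      (isCompact_univ_pi fun _ => isCompact_univ_pi fun _ => isCompact_Icc) h1 h2
  have hne : {W : Matrix (Fin m) (Fin k) ℝ | Wᵀ * W = 1}.Nonempty := by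
    refine ⟨Matrix.of fun i j => if (i : ℕ) = j then 1 else 0, ?_⟩
    ext i j
    rw [Matrix.mul_apply]
    simp only [Matrix.transpose_apply, Matrix.of_apply, Matrix.one_apply]
    rw [Finset.sum_eq_single (⟨i, lt_of_lt_of_le i.2 hk⟩ : Fin m)]
    · simp [Fin.ext_iff]
    · intro b _ hb
      rw [if_neg (fun h => hb (Fin.ext h)), zero_mul]
    · simp
  obtain ⟨W₀, hW₀, hmax⟩ := hcomp.exists_isMaxOn hne
    (f := fun W => (Wᵀ * D.S f * W).trace) (by fun_prop)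
  have hsg : sg k (D.S f) = (W₀ᵀ * D.S f * W₀).trace := by
    refine le_antisymm ?_ ?_
    · refine csSup_le ⟨_, W₀, hW₀, rfl⟩ ?_
      rintro x ⟨W, hW, rfl⟩
      exact hmax hW
    · refine le_csSup ⟨(W₀ᵀ * D.S f * W₀).trace, ?_⟩ ⟨W₀, hW₀, rfl⟩
      rintro x ⟨W, hW, rfl⟩
      exact hmax hW
  refine ⟨B⁻¹ * W₀, ?_, ?_⟩
  · have e1 : (B⁻¹)ᵀ = B⁻¹ := by rw [Matrix.transpose_nonsing_inv, hB]
    rw [Matrix.transpose_mul, e1, ← hBB]
    have : W₀ᵀ * B⁻¹ * (B * B) * (B⁻¹ * W₀) = W₀ᵀ * (B⁻¹ * B) * (B * B⁻¹) * W₀ := by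
      simp only [Matrix.mul_assoc]
    rw [this, Matrix.nonsing_inv_mul _ hu, Matrix.mul_nonsing_inv _ hu, Matrix.mul_one,
      Matrix.mul_one]
    exact hW₀
  · have e1 : (B⁻¹)ᵀ = B⁻¹ := by rw [Matrix.transpose_nonsing_inv, hB]
    rw [hsg, Matrix.transpose_mul, e1, ← hBB]
    have : W₀ᵀ * B⁻¹ * (B * B * (B * B)) * (B⁻¹ * W₀)
        = W₀ᵀ * (B⁻¹ * B) * (B * B) * (B * B⁻¹) * W₀ := by
      simp only [Matrix.mul_assoc]
    rw [this, Matrix.nonsing_inv_mul _ hu, Matrix.mul_nonsing_inv _ hu, Matrix.mul_one,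
      Matrix.mul_one]

/-- **R10** -/
theorem eqRow (ky : KyStmt) (nn : NStmt) : EqStmt := by
  intro m X _ _ D Y hY k hk T hT f hN
  rcases eq_or_lt_of_le hT with rfl | hT0
  · obtain ⟨W, hW1, hW2⟩ := exists_top D hk f
    refine ⟨W, hW1, fun t ht => ?_⟩
    have ht0 : t = 0 := le_antisymm ht.2 ht.1
    subst ht0
    refine ⟨1, isUnit_one, ?_, ?_⟩
    · rw [hY.zero, D.zero, Matrix.mul_one, Matrix.one_mul, hW1]
    · rw [hY.zero, D.zero, Matrix.mul_one, Matrix.one_mul, hW2]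
  · obtain ⟨W, hW, hWN, -⟩ := (nn m X D Y hY k hk).1 T f
    refine ⟨W, hW, ?_⟩
    have e1 : (GW D Y W f T).det = Real.exp (∫ s in (0 : ℝ)..T, sg k (D.S (D.Φ s f))) := by
      rw [← hN, hWN, GW, Matrix.transpose_mul (Y T f) W]
      simp only [Matrix.mul_assoc]
    have hT1 : def' D Y W f T = 0 := by
      rw [def', e1, Real.log_exp, sub_self]
    have hmono := def_mono ky hY hk W f hW
    have h0 := def_zero hY W f hW
    have hconst : ∀ t ∈ Icc (0 : ℝ) T, def' D Y W f t = 0 := fun t ht =>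
      le_antisymm ((hmono ht.2).trans_eq hT1) (h0 ▸ hmono ht.1)
    intro t ht
    have hder : sg k (D.S (D.Φ t f)) - rate D Y W f t = 0 := by
      have h1 := (hasDerivAt_def ky hY hk W f hW t).hasDerivWithinAt (s := Icc 0 T)
      have h2 : HasDerivWithinAt (def' D Y W f) 0 (Icc 0 T) t :=
        (hasDerivWithinAt_const t (Icc 0 T) (0 : ℝ)).congr hconst (hconst t ht)
      exact (uniqueDiffOn_Icc hT0 t ht).eq_deriv _ h1 h2
    obtain ⟨Q, hQu, hQ, hQi⟩ := exists_Q _ (pdGW hY W f hW t)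
    refine ⟨Q, hQu, one_eq W f t hQ, ?_⟩
    rw [← rate_eq W f t hQi]
    linarith

end Vale.Agent.P207.SPH.H5
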